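import Mathlib

/-!
# P015: squares without Gaussian primes

If `w = n₁ + β` and `n ≡ n₁` modulo the product of all the norms of the `n₁ + β`, then the norm of
`n₁ + β` divides the norm of `n + β`.
-/

namespace P015L

theorem not_prime {z : GaussianInt} {d : ℤ} (hd : 1 < d) (hdiv : d ∣ z.norm)
    (hbig : d ^ 2 < z.norm) : ¬ Prime z := by
  intro hz
  obtain ⟨e, he⟩ := hdiv
  have h1 : z * star z = (d : GaussianInt) * (e : GaussianInt) := by
    rw [← Zsqrtd.norm_eq_mul_conj, he]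
    push_cast
    rfl
  have hnd : ((d : GaussianInt)).norm = d ^ 2 := by
    rw [Zsqrtd.norm_intCast]
    ring
  have h2 : z ∣ (d : GaussianInt) * e := ⟨star z, h1.symm⟩
  rcases hz.dvd_or_dvd h2 with h3 | h3
  · obtain ⟨f, hf⟩ := h3
    have h4 : d ^ 2 = z.norm * f.norm := by rw [← hnd, hf, Zsqrtd.norm_mul]
    have h5 : z.norm ∣ d ^ 2 := ⟨_, h4⟩
    have h6 := Int.le_of_dvd (by positivity) h5
    linarith
  · obtain ⟨f, hf⟩ := h3
    have h4 : star z = (d : GaussianInt) * f := by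
      have h5 : z * star z = z * ((d : GaussianInt) * f) := by
        rw [h1, hf]
        ring
      exact mul_left_cancel₀ hz.ne_zero h5
    have h5 : z = (d : GaussianInt) * star f := by
      have h6 := congrArg star h4
      rw [star_star, star_mul, star_intCast] at h6
      rw [h6]
      ring
    rcases hz.irreducible.isUnit_or_isUnit h5 with h6 | h6
    · have h7 := (Zsqrtd.norm_eq_one_iff' (by norm_num) _).2 h6
      rw [hnd] at h7
      nlinarith
    · have h7 := (Zsqrtd.norm_eq_one_iff' (by norm_num) _).2 h6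
      have h8 : z.norm = d ^ 2 := by
        conv_lhs => rw [h5]
        rw [Zsqrtd.norm_mul, hnd, h7, mul_one]
      linarith

/-- the square of side `2 K + 1` -/
noncomputable def blk (K : ℕ) : Finset (ℤ × ℤ) :=
  Finset.Icc (-(K : ℤ)) K ×ˢ Finset.Icc (-(K : ℤ)) K

/-- shift by `β` -/
def sh (n : GaussianInt) (β : ℤ × ℤ) : GaussianInt := ⟨n.re + β.1, n.im + β.2⟩

/-- the modulus -/
noncomputable def md (K : ℕ) (n : GaussianInt) : ℤ := ∏ β ∈ blk K, (sh n β).norm

theorem norm_def' (z : GaussianInt) : z.norm = z.re ^ 2 + z.im ^ 2 := by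
  rw [Zsqrtd.norm_def]
  ring

theorem one_lt_norm {K : ℕ} {n : GaussianInt} (hn : (K : ℤ) + 2 ≤ |n.re| ∨ (K : ℤ) + 2 ≤ |n.im|)
    {β : ℤ × ℤ} (hβ : β ∈ blk K) : 1 < (sh n β).norm := by
  rw [norm_def']
  change 1 < (n.re + β.1) ^ 2 + (n.im + β.2) ^ 2
  unfold blk at hβ
  rw [Finset.mem_product, Finset.mem_Icc, Finset.mem_Icc] at hβ
  obtain ⟨⟨h1, h2⟩, h3, h4⟩ := hβ
  rcases hn with h | h
  · rcases abs_cases n.re with ⟨h5, h6⟩ | ⟨h5, h6⟩
    · have h7 : 2 ≤ n.re + β.1 := by linarith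
      nlinarith [sq_nonneg (n.im + β.2)]
    · have h7 : n.re + β.1 ≤ -2 := by linarith
      nlinarith [sq_nonneg (n.im + β.2)]
  · rcases abs_cases n.im with ⟨h5, h6⟩ | ⟨h5, h6⟩
    · have h7 : 2 ≤ n.im + β.2 := by linarith
      nlinarith [sq_nonneg (n.re + β.1)]
    · have h7 : n.im + β.2 ≤ -2 := by linarith
      nlinarith [sq_nonneg (n.re + β.1)]

theorem md_pos {K : ℕ} {n : GaussianInt} (hn : (K : ℤ) + 2 ≤ |n.re| ∨ (K : ℤ) + 2 ≤ |n.im|) :
    0 < md K n :=
  Finset.prod_pos fun _ hβ => lt_trans one_pos (one_lt_norm hn hβ)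

theorem norm_le_md {K : ℕ} {n : GaussianInt} (hn : (K : ℤ) + 2 ≤ |n.re| ∨ (K : ℤ) + 2 ≤ |n.im|)
    {β : ℤ × ℤ} (hβ : β ∈ blk K) : (sh n β).norm ≤ md K n :=
  Int.le_of_dvd (md_pos hn) (Finset.dvd_prod_of_mem _ hβ)

/-- no Gaussian prime in the square around `n`, `n ≡ n₁` modulo `md K n₁`, `n` large -/
theorem square_free {K : ℕ} {n₁ : GaussianInt}
    (hn : (K : ℤ) + 2 ≤ |n₁.re| ∨ (K : ℤ) + 2 ≤ |n₁.im|) {n : GaussianInt}
    (h1 : md K n₁ ∣ n.re - n₁.re) (h2 : md K n₁ ∣ n.im - n₁.im)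
    (hbig : (K : ℤ) + md K n₁ + 1 ≤ |n.re| ∨ (K : ℤ) + md K n₁ + 1 ≤ |n.im|)
    (z : GaussianInt) (hz1 : |z.re - n.re| ≤ K) (hz2 : |z.im - n.im| ≤ K) : ¬ Prime z := by
  obtain ⟨a, ha⟩ := h1
  obtain ⟨b, hb⟩ := h2
  let β : ℤ × ℤ := (z.re - n.re, z.im - n.im)
  have hβ : β ∈ blk K := by
    unfold blk
    rw [Finset.mem_product, Finset.mem_Icc, Finset.mem_Icc]
    exact ⟨abs_le.1 hz1, abs_le.1 hz2⟩
  have hd := one_lt_norm hn hβ
  obtain ⟨c, hc⟩ : (sh n₁ β).norm ∣ md K n₁ := Finset.dvd_prod_of_mem _ hβ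
  refine not_prime hd ?_ ?_
  · have e1 : z.norm = (sh n₁ β).norm * (1 + c * (2 * a * (n₁.re + β.1) + 2 * b * (n₁.im + β.2)
        + md K n₁ * (a ^ 2 + b ^ 2))) := by
      have e2 : z.re = n₁.re + β.1 + md K n₁ * a := by
        change z.re = n₁.re + (z.re - n.re) + md K n₁ * a
        linarith
      have e3 : z.im = n₁.im + β.2 + md K n₁ * b := by
        change z.im = n₁.im + (z.im - n.im) + md K n₁ * b
        linarith
      have e4 : (sh n₁ β).norm = (n₁.re + β.1) ^ 2 + (n₁.im + β.2) ^ 2 := norm_def' _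
      have e5 : z.norm = (sh n₁ β).norm + md K n₁ * (2 * a * (n₁.re + β.1) +
          2 * b * (n₁.im + β.2) + md K n₁ * (a ^ 2 + b ^ 2)) := by
        rw [norm_def' z, e2, e3, e4]
        ring
      rw [e5]
      conv_lhs => rw [show md K n₁ * (2 * a * (n₁.re + β.1) +
          2 * b * (n₁.im + β.2) + md K n₁ * (a ^ 2 + b ^ 2)) =
          ((sh n₁ β).norm * c) * (2 * a * (n₁.re + β.1) +
          2 * b * (n₁.im + β.2) + md K n₁ * (a ^ 2 + b ^ 2)) by rw [← hc]]
      ring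
    exact ⟨_, e1⟩
  · have h3 := norm_le_md hn hβ
    have h4 : (sh n₁ β).norm ^ 2 ≤ md K n₁ ^ 2 := by nlinarith
    have hm := md_pos hn
    have h5 : md K n₁ ^ 2 < z.norm := by
      rw [norm_def']
      rcases hbig with h | h
      · have h6 : md K n₁ + 1 ≤ |z.re| := by
          have h7 : |n.re| ≤ |z.re| + |z.re - n.re| := by
            have h8 := abs_sub_abs_le_abs_sub n.re z.re
            rw [abs_sub_comm] at h8
            linarith
          linarith
        have h9 : (md K n₁ + 1) ^ 2 ≤ z.re ^ 2 := by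
          rw [← sq_abs z.re]
          nlinarith
        nlinarith [sq_nonneg z.im]
      · have h6 : md K n₁ + 1 ≤ |z.im| := by
          have h7 : |n.im| ≤ |z.im| + |z.im - n.im| := by
            have h8 := abs_sub_abs_le_abs_sub n.im z.im
            rw [abs_sub_comm] at h8
            linarith
          linarith
        have h9 : (md K n₁ + 1) ^ 2 ≤ z.im ^ 2 := by
          rw [← sq_abs z.im]
          nlinarith
        nlinarith [sq_nonneg z.re]
    linarith

end P015L
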