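import Vale.Agent.Lib.P015L.Core

/-!
# P015: holes on all lattice lines with a common period
-/

namespace P015L

theorem solve_one {p : ℕ} [hp : Fact p.Prime] (hp4 : p % 4 = 1) (X Y a b : ℤ)
    (hab : IsCoprime a b) : ∃ t : ℤ, (p : ℤ) ∣ (X + t * a) ^ 2 + (Y + t * b) ^ 2 := by
  obtain ⟨r, hr⟩ : IsSquare (-1 : ZMod p) := ZMod.exists_sq_eq_neg_one_iff.2 (by omega)
  have hp2 : p ≠ 2 := by omega
  have hr2 : r * r = -1 := hr.symm
  have key : ∀ s : ZMod p, s * s = -1 → (a : ZMod p) + s * (b : ZMod p) ≠ 0 →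
      ∃ t : ℤ, (p : ℤ) ∣ (X + t * a) ^ 2 + (Y + t * b) ^ 2 := by
    intro s hs h
    obtain ⟨t, ht⟩ := ZMod.intCast_surjective
      (-((X : ZMod p) + s * (Y : ZMod p)) * ((a : ZMod p) + s * (b : ZMod p))⁻¹)
    refine ⟨t, ?_⟩
    rw [← ZMod.intCast_zmod_eq_zero_iff_dvd]
    push_cast
    have h1 : (X : ZMod p) + (t : ZMod p) * (a : ZMod p) =
        -(s * ((Y : ZMod p) + (t : ZMod p) * (b : ZMod p))) := by
      have h2 : (t : ZMod p) * ((a : ZMod p) + s * (b : ZMod p)) =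
          -((X : ZMod p) + s * (Y : ZMod p)) := by
        rw [ht, mul_assoc, inv_mul_cancel₀ h, mul_one]
      linear_combination h2
    rw [h1]
    linear_combination ((Y : ZMod p) + (t : ZMod p) * (b : ZMod p)) ^ 2 * hs
  by_cases h : (a : ZMod p) + r * (b : ZMod p) = 0
  · refine key (-r) (by linear_combination hr2) ?_
    intro h'
    have h2 : (2 : ZMod p) ≠ 0 := by
      intro h3
      have h4 : ((2 : ℕ) : ZMod p) = 0 := by exact_mod_cast h3
      rw [ZMod.natCast_eq_zero_iff] at h4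
      have h5 := (Nat.prime_dvd_prime_iff_eq hp.out Nat.prime_two).1 h4
      exact hp2 h5
    have ha : (a : ZMod p) = 0 := by
      have h3 : (2 : ZMod p) * (a : ZMod p) = 0 := by linear_combination h + h'
      exact (mul_eq_zero.1 h3).resolve_left h2
    have hr0 : r ≠ 0 := by
      intro h3
      rw [h3, mul_zero] at hr2
      have : (1 : ZMod p) = 0 := by linear_combination hr2
      exact one_ne_zero this
    have hb : (b : ZMod p) = 0 := by
      rw [ha, zero_add] at h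
      exact (mul_eq_zero.1 h).resolve_left hr0
    obtain ⟨x, y, hxy⟩ := hab
    have h3 : ((x * a + y * b : ℤ) : ZMod p) = 1 := by rw [hxy]; simp
    push_cast at h3
    rw [ha, hb, mul_zero, mul_zero, add_zero] at h3
    exact zero_ne_one h3
  · exact key r hr2 h

theorem crt (S : Finset (ℤ × ℤ)) : ∃ N : ℤ, 0 < N ∧ ∀ g₁ g₂ a b : ℤ, IsCoprime a b →
    ∃ t₀ : ℤ, ∀ t : ℤ, N ∣ t - t₀ → ∀ β ∈ S, ∃ d : ℤ, 1 < d ∧ d ≤ N ∧
      d ∣ (g₁ + β.1 + t * a) ^ 2 + (g₂ + β.2 + t * b) ^ 2 := by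
  classical
  induction S using Finset.induction_on with
  | empty => exact ⟨1, one_pos, fun _ _ _ _ _ => ⟨0, fun _ _ β hβ => by simp at hβ⟩⟩
  | insert β S hβS ih =>
    obtain ⟨N, hN, ih⟩ := ih
    obtain ⟨p, hpN, hp, hp4⟩ : ∃ p : ℕ, N.toNat < p ∧ p.Prime ∧ p % 4 = 1 := by
      obtain ⟨p, hp, hpn, hmod⟩ := Nat.exists_prime_gt_modEq_one (k := 4) N.toNat (by norm_num)
      exact ⟨p, hpn, hp, hmod⟩
    have : Fact p.Prime := ⟨hp⟩
    have hNp : IsCoprime N (p : ℤ) := by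
      have h1 : Int.gcd N p = 1 := by
        have h2 : (Int.gcd N p : ℕ) = Nat.gcd N.toNat p := by
          have h3 : ((N.toNat : ℤ)) = N := Int.toNat_of_nonneg hN.le
          conv_lhs => rw [← h3]
          exact Int.gcd_natCast_natCast _ _
        rw [h2]
        refine Nat.Coprime.symm ((Nat.Prime.coprime_iff_not_dvd hp).2 ?_)
        intro h3
        have h4 : 0 < N.toNat := by omega
        have := Nat.le_of_dvd h4 h3
        omega
      exact Int.isCoprime_iff_gcd_eq_one.2 h1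
    have hp1 : (1 : ℤ) < p := by exact_mod_cast hp.one_lt
    refine ⟨N * p, by positivity, ?_⟩
    intro g₁ g₂ a b hab
    obtain ⟨t₀, ht₀⟩ := ih g₁ g₂ a b hab
    obtain ⟨t₁, ht₁⟩ := solve_one hp4 (g₁ + β.1) (g₂ + β.2) a b hab
    obtain ⟨x, y, hxy⟩ := hNp
    refine ⟨t₀ + N * x * (t₁ - t₀), ?_⟩
    intro t ht γ hγ
    rw [Finset.mem_insert] at hγ
    rcases hγ with rfl | hγ
    · refine ⟨p, hp1, by nlinarith, ?_⟩
      have h1 : (p : ℤ) ∣ t - t₁ := by
        have h2 : (p : ℤ) ∣ t - (t₀ + N * x * (t₁ - t₀)) := (Dvd.intro_left N rfl).trans ht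
        have h3 : t - t₁ = (t - (t₀ + N * x * (t₁ - t₀))) + p * (-(y * (t₁ - t₀))) := by
          have h4 : N * x = 1 - y * p := by linarith
          rw [h4]
          ring
        rw [h3]
        exact h2.add (Dvd.intro _ rfl)
      obtain ⟨c, hc⟩ := h1
      have h5 : (g₁ + γ.1 + t * a) ^ 2 + (g₂ + γ.2 + t * b) ^ 2 =
          ((g₁ + γ.1 + t₁ * a) ^ 2 + (g₂ + γ.2 + t₁ * b) ^ 2) + p * (c * (a *
          (2 * (g₁ + γ.1 + t₁ * a) + p * c * a) + b * (2 * (g₂ + γ.2 + t₁ * b) + p * c * b))) := by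
        have h6 : t = t₁ + p * c := by linarith
        rw [h6]
        ring
      rw [h5]
      exact ht₁.add (Dvd.intro _ rfl)
    · have h1 : N ∣ t - t₀ := by
        have h2 : N ∣ t - (t₀ + N * x * (t₁ - t₀)) := (Dvd.intro _ rfl).trans ht
        have h3 : t - t₀ = (t - (t₀ + N * x * (t₁ - t₀))) + N * (x * (t₁ - t₀)) := by ring
        rw [h3]
        exact h2.add (Dvd.intro _ rfl)
      obtain ⟨d, hd1, hd2, hd3⟩ := ht₀ t h1 γ hγ
      exact ⟨d, hd1, by nlinarith, hd3⟩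

end P015L
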