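import Vale.Agent.Lib.P015L.PathU

/-!
# P015: infinite paths of Gaussian primes are not straight on windows of bounded length
-/

namespace P015L

theorem infinite_windows (D w : ℝ) : ∃ L : ℕ, ∀ z : ℕ → GaussianInt, (∀ n, Irreducible (z n)) →
    Function.Injective z → (∀ n, ‖(z (n + 1) : ℂ) - z n‖ ≤ D) →
      ∃ n₀ : ℕ, ∀ m ≥ n₀, ∀ c u : ℂ, ‖u‖ = 1 →
        ∃ n, m ≤ n ∧ n ≤ m + L ∧ ∀ t : ℝ, w < ‖(z n : ℂ) - (c + t * u)‖ := by
  obtain ⟨L, ρ, hL⟩ := path_uniform D w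
  refine ⟨L, ?_⟩
  intro z hz hinj hstep
  have hfin : {n : ℕ | ‖(z n : ℂ)‖ ≤ ρ}.Finite :=
    Set.Finite.preimage (hinj.injOn) (finite_ball ρ)
  obtain ⟨n₀, hn₀⟩ := hfin.bddAbove
  refine ⟨n₀ + 1, ?_⟩
  intro m hm c u hu
  obtain ⟨n, hn, h⟩ := hL (fun k => z (m + k)) (fun k _ => hz _) (fun k _ => by
      by_contra hcon
      push Not at hcon
      have h1 : m + k ≤ n₀ := hn₀ hcon
      omega)
    (fun a _ b _ hab => by
      have := hinj hab
      omega)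
    (fun k _ => hstep (m + k)) c u hu
  exact ⟨m + n, by omega, by omega, h⟩

end P015L
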