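import Vale.Agent.Lib.P015L.Core

/-!
# P015: disks without Gaussian primes centred on an arbitrary line
-/

namespace P015L

theorem approx {α : ℝ} (hα : Irrational α) {ε : ℝ} (hε : 0 < ε) (y : ℝ) (M₀ : ℕ) :
    ∃ m j : ℤ, (M₀ : ℤ) ≤ m ∧ |α * m - j - y| ≤ ε := by
  obtain ⟨n, hn⟩ := exists_nat_one_div_lt hε
  obtain ⟨j₀, k₀, hk₀, -, hjk⟩ := Real.exists_int_int_abs_mul_sub_le α (Nat.succ_pos n)
  have hδε : |(k₀ : ℝ) * α - j₀| ≤ ε := by
    refine hjk.trans (le_trans ?_ hn.le)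
    refine one_div_le_one_div_of_le (by positivity) ?_
    push_cast
    linarith
  have hδ0 : (k₀ : ℝ) * α - j₀ ≠ 0 := by
    intro h
    have h1 : (k₀ : ℝ) ≠ 0 := by exact_mod_cast hk₀.ne'
    have h2 : α = ((j₀ / k₀ : ℚ) : ℝ) := by
      push_cast
      rw [eq_div_iff h1]
      linarith
    exact hα ⟨_, h2.symm⟩
  obtain ⟨J, hJ⟩ : ∃ J : ℤ, (M₀ : ℝ) + 1 ≤ (y + J) / ((k₀ : ℝ) * α - j₀) := by
    rcases lt_or_gt_of_ne hδ0 with h | h
    · refine ⟨⌊((M₀ : ℝ) + 1) * ((k₀ : ℝ) * α - j₀) - y⌋, ?_⟩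
      rw [le_div_iff_of_neg h]
      have := Int.floor_le (((M₀ : ℝ) + 1) * ((k₀ : ℝ) * α - j₀) - y)
      linarith
    · refine ⟨⌈((M₀ : ℝ) + 1) * ((k₀ : ℝ) * α - j₀) - y⌉, ?_⟩
      rw [le_div_iff₀ h]
      have := Int.le_ceil (((M₀ : ℝ) + 1) * ((k₀ : ℝ) * α - j₀) - y)
      linarith
  have hq1 : ((M₀ : ℤ) + 1) ≤ ⌊(y + J) / ((k₀ : ℝ) * α - j₀)⌋ := by
    rw [Int.le_floor]
    push_cast
    exact hJ
  refine ⟨⌊(y + J) / ((k₀ : ℝ) * α - j₀)⌋ * k₀, ⌊(y + J) / ((k₀ : ℝ) * α - j₀)⌋ * j₀ + J, ?_, ?_⟩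
  · nlinarith
  · have h1 := Int.floor_le ((y + J) / ((k₀ : ℝ) * α - j₀))
    have h2 := (Int.lt_floor_add_one ((y + J) / ((k₀ : ℝ) * α - j₀))).le
    have h3 : α * ((⌊(y + J) / ((k₀ : ℝ) * α - j₀)⌋ * k₀ : ℤ) : ℝ) -
        ((⌊(y + J) / ((k₀ : ℝ) * α - j₀)⌋ * j₀ + J : ℤ) : ℝ) - y =
        ((⌊(y + J) / ((k₀ : ℝ) * α - j₀)⌋ : ℝ) - (y + J) / ((k₀ : ℝ) * α - j₀)) *
          ((k₀ : ℝ) * α - j₀) := by
      push_cast
      rw [sub_mul, div_mul_cancel₀ _ hδ0]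
      ring
    rw [h3, abs_mul]
    have h4 : |(⌊(y + J) / ((k₀ : ℝ) * α - j₀)⌋ : ℝ) - (y + J) / ((k₀ : ℝ) * α - j₀)| ≤ 1 := by
      rw [abs_le]
      constructor <;> linarith
    have h5 := mul_le_mul h4 hδε (abs_nonneg _) zero_le_one
    linarith

/-- the case of a line of irrational slope -/
theorem line_irr {u₁ u₂ : ℝ} (hu : u₁ ≠ 0) (hα : Irrational (u₂ / u₁)) (c₁ c₂ R T : ℝ) :
    ∃ t : ℝ, T ≤ t ∧ ∀ z : GaussianInt, |(z.re : ℝ) - (c₁ + t * u₁)| ≤ R →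
      |(z.im : ℝ) - (c₂ + t * u₂)| ≤ R → ¬ Prime z := by
  set K : ℕ := ⌈|R|⌉₊ + 1 with hK
  have hKR : R + 1 ≤ (K : ℝ) := by
    rw [hK]
    push_cast
    have := Nat.le_ceil |R|
    have := le_abs_self R
    linarith
  let n₁ : GaussianInt := ⟨(K : ℤ) + 2, 0⟩
  have hn : (K : ℤ) + 2 ≤ |n₁.re| ∨ (K : ℤ) + 2 ≤ |n₁.im| := Or.inl (le_abs_self _)
  have hN := md_pos hn
  set N : ℤ := md K n₁ with hNd
  have hNR : (0 : ℝ) < N := by exact_mod_cast hN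
  have hN1 : (1 : ℝ) ≤ N := by exact_mod_cast hN
  obtain ⟨σ, hσ, hσu⟩ : ∃ σ : ℤ, (σ = 1 ∨ σ = -1) ∧ (σ : ℝ) * u₁ = |u₁| := by
    rcases abs_cases u₁ with ⟨h1, -⟩ | ⟨h1, -⟩
    · exact ⟨1, Or.inl rfl, by rw [h1]; simp⟩
    · exact ⟨-1, Or.inr rfl, by rw [h1]; simp⟩
  have hσ2 : (σ : ℝ) * σ = 1 := by
    rcases hσ with h | h <;> rw [h] <;> norm_num
  have hσα : Irrational ((σ : ℝ) * (u₂ / u₁)) := by
    rcases hσ with h | h
    · rw [h]
      simpa using hα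
    · rw [h]
      simpa using hα.neg
  have hu' : 0 < |u₁| := abs_pos.2 hu
  set M₀ : ℕ := K + 2 + (K + N.toNat + 1) + ⌈|c₁| + |T| * |u₁|⌉₊ with hM₀
  obtain ⟨m, j, hm, hj⟩ := approx hσα (ε := 1 / N) (by positivity)
    (-((u₂ / u₁) * (K + 2) + (c₂ - c₁ * (u₂ / u₁))) / N) M₀
  have hmR : (M₀ : ℝ) ≤ m := by exact_mod_cast hm
  have hM₀R : (M₀ : ℝ) = K + 2 + (K + N + 1) + ⌈|c₁| + |T| * |u₁|⌉₊ := by
    have h1 : ((N.toNat : ℤ)) = N := Int.toNat_of_nonneg hN.le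
    have h2 : (N.toNat : ℝ) = N := by exact_mod_cast h1
    rw [hM₀]
    push_cast
    rw [h2]
  have hceil := Nat.le_ceil (|c₁| + |T| * |u₁|)
  have hceil0 : (0 : ℝ) ≤ ⌈|c₁| + |T| * |u₁|⌉₊ := Nat.cast_nonneg _
  set x : ℤ := (K : ℤ) + 2 + N * (σ * m) with hx
  have hxR : (x : ℝ) = K + 2 + N * (σ * m) := by rw [hx]; push_cast; ring
  have hm0 : (0 : ℝ) ≤ m := le_trans (Nat.cast_nonneg _) hmR
  have hNm : (m : ℝ) ≤ N * m := by nlinarith
  have hK0 : (0 : ℝ) ≤ K := Nat.cast_nonneg _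
  have hσx : (K : ℝ) + N + 1 + (|c₁| + |T| * |u₁|) ≤ σ * x := by
    have h1 : (σ : ℝ) * x = σ * (K + 2) + (σ * σ) * (N * m) := by rw [hxR]; ring
    rw [h1, hσ2, one_mul]
    have h2 : -((K : ℝ) + 2) ≤ σ * (K + 2) := by
      rcases hσ with h | h <;> rw [h] <;> push_cast <;> linarith
    linarith
  have hxabs : (K : ℝ) + N + 1 ≤ |(x : ℝ)| := by
    have h1 : (σ : ℝ) * x ≤ |(x : ℝ)| := by
      rcases hσ with h | h
      · rw [h]
        push_cast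
        rw [one_mul]
        exact le_abs_self _
      · rw [h]
        push_cast
        rw [neg_one_mul]
        exact neg_le_abs _
    have h2 : 0 ≤ |c₁| + |T| * |u₁| := by positivity
    linarith
  set t : ℝ := (x - c₁) / u₁ with ht
  have htu : t * u₁ = x - c₁ := div_mul_cancel₀ _ hu
  refine ⟨t, ?_, ?_⟩
  · have h1 : t * |u₁| = σ * x - σ * c₁ := by
      rw [← hσu]
      have : t * (σ * u₁) = σ * (t * u₁) := by ring
      rw [this, htu]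
      ring
    have h2 : σ * c₁ ≤ |c₁| := by
      rcases hσ with h | h
      · rw [h]
        push_cast
        rw [one_mul]
        exact le_abs_self _
      · rw [h]
        push_cast
        rw [neg_one_mul]
        exact neg_le_abs _
    have h3 : T * |u₁| ≤ |T| * |u₁| := mul_le_mul_of_nonneg_right (le_abs_self _) hu'.le
    have h4 : T * |u₁| ≤ t * |u₁| := by
      rw [h1]
      linarith
    exact le_of_mul_le_mul_right h4 hu'
  · intro z hz1 hz2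
    let n : GaussianInt := ⟨x, N * j⟩
    have hline : c₂ + t * u₂ = (u₂ / u₁) * x + (c₂ - c₁ * (u₂ / u₁)) := by
      rw [ht]
      field_simp
      ring
    have hy : |((N * j : ℤ) : ℝ) - (c₂ + t * u₂)| ≤ 1 := by
      have h1 : ((N * j : ℤ) : ℝ) - (c₂ + t * u₂) =
          -(N * ((σ : ℝ) * (u₂ / u₁) * m - j -
            -((u₂ / u₁) * (K + 2) + (c₂ - c₁ * (u₂ / u₁))) / N)) := by
        rw [hline, hxR]
        push_cast
        field_simp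
        ring
      rw [h1, abs_neg, abs_mul, abs_of_pos hNR]
      calc (N : ℝ) * |_| ≤ N * (1 / N) := mul_le_mul_of_nonneg_left hj hNR.le
        _ = 1 := by field_simp
    refine square_free hn (n := n) ?_ ?_ ?_ z ?_ ?_
    · refine ⟨σ * m, ?_⟩
      change x - ((K : ℤ) + 2) = _
      rw [hx]
      ring
    · refine ⟨j, ?_⟩
      change N * j - 0 = _
      rw [sub_zero]
    · left
      change (K : ℤ) + md K n₁ + 1 ≤ |x|
      have h1 : (((K : ℤ) + N + 1 : ℤ) : ℝ) ≤ ((|x| : ℤ) : ℝ) := by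
        push_cast
        exact hxabs
      exact_mod_cast h1
    · change |z.re - x| ≤ (K : ℤ)
      have h1 : c₁ + t * u₁ = x := by rw [htu]; ring
      rw [h1] at hz1
      have h2 : ((|z.re - x| : ℤ) : ℝ) ≤ ((K : ℤ) : ℝ) := by
        push_cast
        linarith
      exact_mod_cast h2
    · change |z.im - N * j| ≤ (K : ℤ)
      have h1 : |(z.im : ℝ) - ((N * j : ℤ) : ℝ)| ≤ R + 1 := by
        have h3 := abs_sub_le (z.im : ℝ) (c₂ + t * u₂) ((N * j : ℤ) : ℝ)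
        rw [abs_sub_comm (c₂ + t * u₂)] at h3
        linarith
      have h2 : ((|z.im - N * j| : ℤ) : ℝ) ≤ ((K : ℤ) : ℝ) := by
        push_cast
        push_cast at h1
        linarith
      exact_mod_cast h2

end P015L
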