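import Vale.Agent.Lib.P015L.Rat

/-!
# P015: no infinite path with bounded steps stays at bounded distance from a line
-/

namespace P015L

open scoped ComplexConjugate

/-- coordinate along the direction `u` (not normalized) -/
noncomputable def tau (u p : ℂ) : ℝ := (p * conj u).re

theorem tau_add (u p q : ℂ) : tau u (p + q) = tau u p + tau u q := by
  unfold tau
  rw [add_mul, Complex.add_re]

theorem tau_sub (u p q : ℂ) : tau u (p - q) = tau u p - tau u q := by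
  unfold tau
  rw [sub_mul, Complex.sub_re]

theorem abs_tau_le (u p : ℂ) : |tau u p| ≤ ‖p‖ * ‖u‖ := by
  unfold tau
  refine (Complex.abs_re_le_norm _).trans ?_
  rw [norm_mul, Complex.norm_conj]

theorem tau_mul (u : ℂ) (t : ℝ) : tau u (t * u) = t * ‖u‖ ^ 2 := by
  unfold tau
  rw [mul_assoc, Complex.mul_conj, Complex.normSq_eq_norm_sq, ← Complex.ofReal_mul,
    Complex.ofReal_re]

theorem path_up {D w : ℝ} {c u : ℂ} (hu : u ≠ 0) (z : ℕ → GaussianInt) (hz : ∀ n, Prime (z n))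
    (hstep : ∀ n, ‖(z (n + 1) : ℂ) - z n‖ ≤ D)
    (hstrip : ∀ n, ∃ t : ℝ, ‖(z n : ℂ) - (c + t * u)‖ ≤ w)
    (hup : ∀ B : ℝ, ∃ n, B ≤ tau u (z n)) : False := by
  classical
  have hup0 : 0 < ‖u‖ := norm_pos_iff.2 hu
  obtain ⟨t₀, ht₀, hdisk⟩ := line_disk c u hu (D + 2 * w)
    ((tau u (z 0) - tau u c) / ‖u‖ ^ 2 + 1)
  have hT : tau u (z 0) < tau u c + t₀ * ‖u‖ ^ 2 := by
    have h1 : ((tau u (z 0) - tau u c) / ‖u‖ ^ 2 + 1) * ‖u‖ ^ 2 ≤ t₀ * ‖u‖ ^ 2 :=
      mul_le_mul_of_nonneg_right ht₀ (by positivity)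
    rw [add_mul, div_mul_cancel₀ _ (by positivity : ‖u‖ ^ 2 ≠ 0)] at h1
    have h2 : 0 < ‖u‖ ^ 2 := by positivity
    linarith
  have hex := hup (tau u c + t₀ * ‖u‖ ^ 2)
  obtain ⟨j, hj⟩ : ∃ j, Nat.find hex = j + 1 := by
    refine Nat.exists_eq_succ_of_ne_zero ?_
    intro h0
    have h1 := Nat.find_spec hex
    rw [h0] at h1
    linarith
  have h1 : tau u c + t₀ * ‖u‖ ^ 2 ≤ tau u (z (j + 1)) := by
    have := Nat.find_spec hex
    rwa [hj] at this
  have h2 : tau u (z j) < tau u c + t₀ * ‖u‖ ^ 2 := by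
    have := Nat.find_min hex (m := j) (by omega)
    push Not at this
    exact this
  have h3 : tau u (z (j + 1)) - tau u (z j) ≤ D * ‖u‖ := by
    rw [← tau_sub]
    refine (le_abs_self _).trans ((abs_tau_le _ _).trans ?_)
    exact mul_le_mul_of_nonneg_right (hstep j) hup0.le
  obtain ⟨t, ht⟩ := hstrip (j + 1)
  have h4 : tau u (z (j + 1)) = tau u c + t * ‖u‖ ^ 2 +
      tau u ((z (j + 1) : ℂ) - (c + t * u)) := by
    rw [tau_sub, tau_add, tau_mul]
    ring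
  have h5 : |tau u ((z (j + 1) : ℂ) - (c + t * u))| ≤ w * ‖u‖ :=
    (abs_tau_le _ _).trans (mul_le_mul_of_nonneg_right ht hup0.le)
  have h6 : |(t - t₀) * ‖u‖| * ‖u‖ ≤ (D + w) * ‖u‖ := by
    have h7 : |(t - t₀) * ‖u‖| * ‖u‖ = |(t - t₀) * ‖u‖ ^ 2| := by
      rw [abs_mul, abs_mul, abs_of_pos hup0, abs_of_pos (by positivity : 0 < ‖u‖ ^ 2)]
      ring
    rw [h7, abs_le]
    have h8 := abs_le.1 h5
    constructor <;> nlinarith [h8.1, h8.2]
  have h7 : |(t - t₀) * ‖u‖| ≤ D + w := le_of_mul_le_mul_right h6 hup0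
  refine hdisk (z (j + 1)) ?_ (hz (j + 1))
  have h8 : (z (j + 1) : ℂ) - (c + t₀ * u) =
      ((z (j + 1) : ℂ) - (c + t * u)) + ((t - t₀ : ℝ) : ℂ) * u := by
    push_cast
    ring
  rw [h8]
  refine (norm_add_le _ _).trans ?_
  have h9 : ‖((t - t₀ : ℝ) : ℂ) * u‖ ≤ D + w := by
    rw [norm_mul, Complex.norm_real, Real.norm_eq_abs]
    rw [abs_mul, abs_of_pos hup0] at h7
    exact h7
  linarith

theorem finite_ball (C : ℝ) : {z : GaussianInt | ‖(z : ℂ)‖ ≤ C}.Finite := by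
  classical
  have h1 : {z : GaussianInt | ‖(z : ℂ)‖ ≤ C} ⊆
      ((Finset.Icc (-⌈C⌉) ⌈C⌉ ×ˢ Finset.Icc (-⌈C⌉) ⌈C⌉).image
        (fun p : ℤ × ℤ => (⟨p.1, p.2⟩ : GaussianInt)) : Finset GaussianInt) := by
    intro z hz
    have hz' : ‖(z : ℂ)‖ ≤ C := hz
    have h2 : |(z.re : ℝ)| ≤ ⌈C⌉ := by
      have h3 := (Complex.abs_re_le_norm (z : ℂ)).trans (hz'.trans (Int.le_ceil C))
      simpa using h3
    have h4 : |(z.im : ℝ)| ≤ ⌈C⌉ := by
      have h3 := (Complex.abs_im_le_norm (z : ℂ)).trans (hz'.trans (Int.le_ceil C))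
      simpa using h3
    rw [abs_le] at h2 h4
    rw [Finset.mem_coe, Finset.mem_image]
    refine ⟨(z.re, z.im), ?_, rfl⟩
    rw [Finset.mem_product, Finset.mem_Icc, Finset.mem_Icc]
    refine ⟨⟨?_, ?_⟩, ?_, ?_⟩
    · exact_mod_cast h2.1
    · exact_mod_cast h2.2
    · exact_mod_cast h4.1
    · exact_mod_cast h4.2
  exact (Finset.finite_toSet _).subset h1

/-- no infinite path of distinct Gaussian primes with bounded steps stays at bounded distance from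
a line -/
theorem no_strip_path (D w : ℝ) (c u : ℂ) (hu : u ≠ 0) (z : ℕ → GaussianInt)
    (hz : ∀ n, Prime (z n)) (hinj : Function.Injective z)
    (hstep : ∀ n, ‖(z (n + 1) : ℂ) - z n‖ ≤ D) :
    ¬ ∀ n, ∃ t : ℝ, ‖(z n : ℂ) - (c + t * u)‖ ≤ w := by
  intro hstrip
  have hup0 : 0 < ‖u‖ := norm_pos_iff.2 hu
  by_cases h1 : ∀ B : ℝ, ∃ n, B ≤ tau u (z n)
  · exact path_up hu z hz hstep hstrip h1
  by_cases h2 : ∀ B : ℝ, ∃ n, B ≤ tau (-u) (z n)
  · refine path_up (c := c) (w := w) (neg_ne_zero.2 hu) z hz hstep ?_ h2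
    intro n
    obtain ⟨t, ht⟩ := hstrip n
    refine ⟨-t, ?_⟩
    have h3 : ((-t : ℝ) : ℂ) * -u = t * u := by
      push_cast
      ring
    rw [h3]
    exact ht
  push Not at h1 h2
  obtain ⟨B₁, hB₁⟩ := h1
  obtain ⟨B₂, hB₂⟩ := h2
  have hneg : ∀ p : ℂ, tau (-u) p = -tau u p := by
    intro p
    unfold tau
    rw [map_neg, mul_neg, Complex.neg_re]
  have hbd : ∀ n, ‖(z n : ℂ)‖ ≤ ‖c‖ + ((|B₁| + |B₂|) / ‖u‖ + ‖c‖ + w) + w := by
    intro n
    obtain ⟨t, ht⟩ := hstrip n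
    have h3 := hB₁ n
    have h4 := hB₂ n
    rw [hneg] at h4
    have h5 : |tau u (z n)| ≤ |B₁| + |B₂| := by
      rw [abs_le]
      have := le_abs_self B₁
      have := le_abs_self B₂
      have := abs_nonneg B₁
      have := abs_nonneg B₂
      constructor <;> linarith
    have h6 : tau u (t * u) = tau u (z n) - tau u c - tau u ((z n : ℂ) - (c + t * u)) := by
      rw [tau_sub, tau_add]
      ring
    rw [tau_mul] at h6
    have h7 : |tau u ((z n : ℂ) - (c + t * u))| ≤ w * ‖u‖ :=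
      (abs_tau_le _ _).trans (mul_le_mul_of_nonneg_right ht hup0.le)
    have h8 := abs_tau_le u c
    have h9 : |t| * ‖u‖ * ‖u‖ ≤ ((|B₁| + |B₂|) / ‖u‖ + ‖c‖ + w) * ‖u‖ := by
      have h10 : |t| * ‖u‖ * ‖u‖ = |t * ‖u‖ ^ 2| := by
        rw [abs_mul, abs_of_pos (by positivity : 0 < ‖u‖ ^ 2)]
        ring
      rw [h10, h6, add_mul, add_mul, div_mul_cancel₀ _ hup0.ne']
      have h11 := abs_le.1 h5
      have h12 := abs_le.1 h7
      have h13 := abs_le.1 h8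
      rw [abs_le]
      constructor <;> linarith [h11.1, h11.2, h12.1, h12.2, h13.1, h13.2]
    have h10 : |t| * ‖u‖ ≤ (|B₁| + |B₂|) / ‖u‖ + ‖c‖ + w := le_of_mul_le_mul_right h9 hup0
    have h11 : (z n : ℂ) = c + t * u + ((z n : ℂ) - (c + t * u)) := by ring
    rw [h11]
    refine (norm_add_le _ _).trans ?_
    have h12 := norm_add_le c (t * u)
    have h13 : ‖(t : ℂ) * u‖ = |t| * ‖u‖ := by
      rw [norm_mul, Complex.norm_real, Real.norm_eq_abs]
    rw [h13] at h12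
    linarith
  have hfin := finite_ball (‖c‖ + ((|B₁| + |B₂|) / ‖u‖ + ‖c‖ + w) + w)
  refine Set.infinite_range_of_injective hinj (hfin.subset ?_)
  rintro _ ⟨n, rfl⟩
  exact hbd n

end P015L
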