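import Vale.Agent.Lib.P015L.Crt

/-!
# P015: every long segment contains the centre of a disk without Gaussian primes
-/

namespace P015L

/-- segments with `|u₂| ≤ |u₁|` -/
theorem seg_half (R : ℝ) : ∃ L N : ℝ, 0 < L ∧ ∀ c₁ c₂ u₁ u₂ : ℝ, |u₂| ≤ |u₁| →
    1 ≤ 2 * |u₁| → ∃ t : ℝ, 0 ≤ t ∧ t ≤ L ∧ ∀ z₁ z₂ : ℤ, |(z₁ : ℝ) - (c₁ + t * u₁)| ≤ R →
      |(z₂ : ℝ) - (c₂ + t * u₂)| ≤ R → ∃ d : ℤ, 1 < d ∧ (d : ℝ) ≤ N ∧ d ∣ z₁ ^ 2 + z₂ ^ 2 := by
  set K : ℕ := ⌈|R|⌉₊ + 2 with hK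
  have hKR : R + 2 ≤ (K : ℝ) := by
    rw [hK]
    push_cast
    have := Nat.le_ceil |R|
    have := le_abs_self R
    linarith
  obtain ⟨N, hN, hcrt⟩ := crt (blk K)
  have hNR : (0 : ℝ) < N := by exact_mod_cast hN
  refine ⟨2 * (N * N), N, by positivity, ?_⟩
  intro c₁ c₂ u₁ u₂ hu hu1
  have hu0 : u₁ ≠ 0 := by
    intro h
    rw [h, abs_zero] at hu1
    linarith
  have hu' : 0 < |u₁| := abs_pos.2 hu0
  obtain ⟨q, hq1, hq2⟩ := Real.exists_rat_abs_sub_le_and_den_le (u₂ / u₁)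
    (n := N.toNat) (by omega)
  have hNn : (N.toNat : ℝ) = N := by
    have h1 : ((N.toNat : ℤ)) = N := Int.toNat_of_nonneg hN.le
    exact_mod_cast h1
  have hden : (0 : ℝ) < q.den := by exact_mod_cast q.den_pos
  have hdenN : (q.den : ℝ) ≤ N := by
    rw [← hNn]
    exact_mod_cast hq2
  obtain ⟨σ, hσ, hσu⟩ : ∃ σ : ℤ, (σ = 1 ∨ σ = -1) ∧ (σ : ℝ) * u₁ = |u₁| := by
    rcases abs_cases u₁ with ⟨h1, -⟩ | ⟨h1, -⟩
    · exact ⟨1, Or.inl rfl, by rw [h1]; simp⟩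
    · exact ⟨-1, Or.inr rfl, by rw [h1]; simp⟩
  have hσ2 : (σ : ℝ) * σ = 1 := by
    rcases hσ with h | h <;> rw [h] <;> norm_num
  have hσ2' : σ * σ = 1 := by
    rcases hσ with h | h <;> rw [h] <;> norm_num
  have hcop : IsCoprime (σ * (q.den : ℤ)) (σ * q.num) := by
    have h1 : IsCoprime (q.den : ℤ) q.num := by
      have := q.reduced
      rw [isCoprime_comm, Int.isCoprime_iff_gcd_eq_one]
      exact this
    obtain ⟨x, y, hxy⟩ := h1
    refine ⟨σ * x, σ * y, ?_⟩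
    have h2 : σ * x * (σ * q.den) + σ * y * (σ * q.num) =
        (σ * σ) * (x * q.den + y * q.num) := by ring
    rw [h2, hσ2', hxy, one_mul]
  obtain ⟨t₀, ht₀⟩ := hcrt ⌊c₁⌋ ⌊c₂⌋ _ _ hcop
  set s : ℤ := t₀ % N with hs
  have hs0 : 0 ≤ s := Int.emod_nonneg _ hN.ne'
  have hsN : s < N := Int.emod_lt_of_pos _ hN
  have hs0R : (0 : ℝ) ≤ s := by exact_mod_cast hs0
  have hsNR : (s : ℝ) ≤ N := by exact_mod_cast hsN.le
  have hdvd : N ∣ s - t₀ := by
    refine ⟨-(t₀ / N), ?_⟩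
    have := Int.emod_add_mul_ediv t₀ N
    rw [hs]
    linarith
  have hhole := ht₀ s hdvd
  have hc₁ : |(⌊c₁⌋ : ℝ) - c₁| ≤ 1 := by
    rw [abs_le]
    have h1 := Int.floor_le c₁
    have h2 := Int.lt_floor_add_one c₁
    constructor <;> linarith
  have hc₂ : |(⌊c₂⌋ : ℝ) - c₂| ≤ 1 := by
    rw [abs_le]
    have h1 := Int.floor_le c₂
    have h2 := Int.lt_floor_add_one c₂
    constructor <;> linarith
  set t : ℝ := s * q.den / |u₁| with ht
  have htu : t * |u₁| = s * q.den := div_mul_cancel₀ _ hu'.ne'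
  have htu1 : t * u₁ = σ * (s * q.den) := by
    have h1 : u₁ = σ * |u₁| := by
      rw [← hσu, ← mul_assoc, hσ2, one_mul]
    rw [h1]
    have h2 : t * (σ * |u₁|) = σ * (t * |u₁|) := by ring
    rw [h2, htu]
  have htu2 : t * u₂ = σ * (s * q.den) * (u₂ / u₁) := by
    rw [← htu1]
    field_simp
  refine ⟨t, by positivity, ?_, ?_⟩
  · rw [ht, div_le_iff₀ hu']
    have h1 : (s : ℝ) * q.den ≤ N * N := mul_le_mul hsNR hdenN hden.le hNR.le
    have h2 : 0 ≤ (N : ℝ) * N := by positivity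
    nlinarith
  · intro z₁ z₂ hz1 hz2
    have hb : |(s : ℝ) * q.num - s * q.den * (u₂ / u₁)| ≤ 1 := by
      have h1 : (s : ℝ) * q.num - s * q.den * (u₂ / u₁) = -(s * q.den * (u₂ / u₁ - q)) := by
        have h2 : (q : ℝ) * q.den = q.num := by
          have h3 : (q : ℝ) = q.num / q.den := by
            exact_mod_cast (Rat.num_div_den q).symm
          rw [h3]
          exact div_mul_cancel₀ _ hden.ne'
        rw [← h2]
        ring
      rw [h1, abs_neg, abs_mul, abs_of_nonneg (by positivity)]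
      have h3 : (s : ℝ) * q.den * |u₂ / u₁ - q| ≤
          s * q.den * (1 / ((N.toNat + 1 : ℝ) * q.den)) :=
        mul_le_mul_of_nonneg_left hq1 (by positivity)
      refine h3.trans ?_
      rw [hNn]
      have h4 : (s : ℝ) * q.den * (1 / ((N + 1 : ℝ) * q.den)) = s / (N + 1) := by
        field_simp
      rw [h4, div_le_one (by positivity)]
      linarith
    obtain ⟨d, hd1, hd2, hd3⟩ := hhole
      (z₁ - (⌊c₁⌋ + s * (σ * q.den)), z₂ - (⌊c₂⌋ + s * (σ * q.num))) (by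
        unfold blk
        rw [Finset.mem_product, Finset.mem_Icc, Finset.mem_Icc]
        have e1 : |(z₁ : ℝ) - (⌊c₁⌋ + s * (σ * q.den))| ≤ K := by
          have h5 : (z₁ : ℝ) - (⌊c₁⌋ + s * (σ * q.den)) =
              (z₁ - (c₁ + t * u₁)) + -((⌊c₁⌋ : ℝ) - c₁) := by
            rw [htu1]
            ring
          rw [h5]
          refine (abs_add_le _ _).trans ?_
          rw [abs_neg]
          linarith
        have e2 : |(z₂ : ℝ) - (⌊c₂⌋ + s * (σ * q.num))| ≤ K := by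
          have h5 : (z₂ : ℝ) - (⌊c₂⌋ + s * (σ * q.num)) =
              ((z₂ - (c₂ + t * u₂)) + -((⌊c₂⌋ : ℝ) - c₂)) +
                -(σ * (s * q.num - s * q.den * (u₂ / u₁))) := by
            rw [htu2]
            ring
          rw [h5]
          refine (abs_add_le _ _).trans ?_
          have h6 := abs_add_le ((z₂ : ℝ) - (c₂ + t * u₂)) (-((⌊c₂⌋ : ℝ) - c₂))
          rw [abs_neg] at h6
          have h7 : |-((σ : ℝ) * (s * q.num - s * q.den * (u₂ / u₁)))| ≤ 1 := by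
            rw [abs_neg, abs_mul]
            have h8 : |(σ : ℝ)| = 1 := by
              rcases hσ with h | h <;> rw [h] <;> norm_num
            rw [h8, one_mul]
            exact hb
          linarith
        rw [abs_le] at e1 e2
        refine ⟨⟨?_, ?_⟩, ?_, ?_⟩
        · exact_mod_cast e1.1
        · exact_mod_cast e1.2
        · exact_mod_cast e2.1
        · exact_mod_cast e2.2)
    refine ⟨d, hd1, by exact_mod_cast hd2, ?_⟩
    have h9 : (⌊c₁⌋ + (z₁ - (⌊c₁⌋ + s * (σ * q.den)), z₂ - (⌊c₂⌋ + s * (σ * q.num))).1 +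
        s * (σ * q.den)) ^ 2 + (⌊c₂⌋ + (z₁ - (⌊c₁⌋ + s * (σ * q.den)),
          z₂ - (⌊c₂⌋ + s * (σ * q.num))).2 + s * (σ * q.num)) ^ 2 = z₁ ^ 2 + z₂ ^ 2 := by
      ring
    rw [h9] at hd3
    exact hd3

theorem seg (R : ℝ) : ∃ L ρ : ℝ, 0 < L ∧ ∀ c u : ℂ, ‖u‖ = 1 → ∃ t : ℝ, 0 ≤ t ∧ t ≤ L ∧
    ∀ z : GaussianInt, ‖(z : ℂ) - (c + t * u)‖ ≤ R → ρ < ‖(z : ℂ)‖ → ¬ Irreducible z := by
  obtain ⟨L, N, hL, h⟩ := seg_half R
  refine ⟨L, |N|, hL, ?_⟩
  intro c u hu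
  have hfin : ∀ z : GaussianInt, |N| < ‖(z : ℂ)‖ →
      (∃ d : ℤ, 1 < d ∧ (d : ℝ) ≤ N ∧ d ∣ z.re ^ 2 + z.im ^ 2) → ¬ Irreducible z := by
    rintro z hz ⟨d, hd1, hd2, hd3⟩ hi
    refine not_prime hd1 (by rw [norm_def']; exact hd3) ?_ hi.prime
    have h1 : ‖(z : ℂ)‖ ^ 2 = ((z.norm : ℤ) : ℝ) := by
      rw [← Complex.normSq_eq_norm_sq, norm_def', Complex.normSq_apply]
      simp
      ring
    have h2 : (d : ℝ) ^ 2 < ((z.norm : ℤ) : ℝ) := by
      rw [← h1]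
      have h3 : (0 : ℝ) < d := by exact_mod_cast lt_trans one_pos hd1
      have h4 : (d : ℝ) < ‖(z : ℂ)‖ := lt_of_le_of_lt (hd2.trans (le_abs_self _)) hz
      nlinarith
    exact_mod_cast h2
  have hsq : u.re ^ 2 + u.im ^ 2 = 1 := by
    have h1 := Complex.normSq_eq_norm_sq u
    rw [hu, Complex.normSq_apply] at h1
    linarith
  rcases le_total |u.im| |u.re| with hle | hle
  · have h2 : 1 ≤ 2 * |u.re| := by
      have h3 : u.im ^ 2 ≤ u.re ^ 2 := sq_le_sq.2 hle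
      nlinarith [sq_abs u.re, abs_nonneg u.re]
    obtain ⟨t, ht0, htL, ht⟩ := h c.re c.im u.re u.im hle h2
    refine ⟨t, ht0, htL, fun z hz hzN => hfin z hzN (ht z.re z.im ?_ ?_)⟩
    · refine le_trans ?_ hz
      have h1 := Complex.abs_re_le_norm ((z : ℂ) - (c + t * u))
      simpa using h1
    · refine le_trans ?_ hz
      have h1 := Complex.abs_im_le_norm ((z : ℂ) - (c + t * u))
      simpa using h1
  · have h2 : 1 ≤ 2 * |u.im| := by
      have h3 : u.re ^ 2 ≤ u.im ^ 2 := sq_le_sq.2 hle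
      nlinarith [sq_abs u.im, abs_nonneg u.im]
    obtain ⟨t, ht0, htL, ht⟩ := h c.im c.re u.im u.re hle h2
    refine ⟨t, ht0, htL, fun z hz hzN => hfin z hzN ?_⟩
    obtain ⟨d, hd1, hd2, hd3⟩ := ht z.im z.re (by
      refine le_trans ?_ hz
      have h1 := Complex.abs_im_le_norm ((z : ℂ) - (c + t * u))
      simpa using h1) (by
      refine le_trans ?_ hz
      have h1 := Complex.abs_re_le_norm ((z : ℂ) - (c + t * u))
      simpa using h1)
    exact ⟨d, hd1, hd2, by rw [add_comm]; exact hd3⟩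

end P015L
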