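import Vale.Agent.Lib.P015L.Path
import Vale.Agent.Lib.P015L.Seg

/-!
# P015: long paths of Gaussian primes with bounded steps are not straight, uniformly
-/

namespace P015L

open scoped ComplexConjugate

theorem cross {D w l ρ : ℝ} (hseg : ∀ c u : ℂ, ‖u‖ = 1 → ∃ t : ℝ, 0 ≤ t ∧ t ≤ l ∧
    ∀ z : GaussianInt, ‖(z : ℂ) - (c + t * u)‖ ≤ D + 2 * w → ρ < ‖(z : ℂ)‖ → ¬ Irreducible z)
    (L : ℕ) (z : ℕ → GaussianInt) (hz : ∀ n ≤ L, Irreducible (z n))
    (hfar : ∀ n ≤ L, ρ < ‖(z n : ℂ)‖) (hstep : ∀ n < L, ‖(z (n + 1) : ℂ) - z n‖ ≤ D)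
    (c u : ℂ) (hu : ‖u‖ = 1) (hstrip : ∀ n ≤ L, ∃ t : ℝ, ‖(z n : ℂ) - (c + t * u)‖ ≤ w) :
    ∀ n ≤ L, tau u (z n) ≤ tau u (z 0) + 1 + l := by
  classical
  intro n hn
  by_contra hcon
  push Not at hcon
  have htm : ∀ t : ℝ, tau u (t * u) = t := by
    intro t
    rw [tau_mul, hu]
    ring
  have htn : ∀ p : ℂ, |tau u p| ≤ ‖p‖ := by
    intro p
    have := abs_tau_le u p
    rwa [hu, mul_one] at this
  obtain ⟨t₁, ht₁0, ht₁l, hdisk⟩ := hseg
    (c + ((tau u (z 0) - tau u c + 1 : ℝ) : ℂ) * u) u hu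
  set t₀ : ℝ := tau u (z 0) - tau u c + 1 + t₁ with ht₀
  have hcen : c + ((tau u (z 0) - tau u c + 1 : ℝ) : ℂ) * u + t₁ * u = c + (t₀ : ℂ) * u := by
    rw [ht₀]
    push_cast
    ring
  rw [hcen] at hdisk
  have hex : ∃ j, tau u c + t₀ ≤ tau u (z j) := ⟨n, by linarith⟩
  have hfn : Nat.find hex ≤ n := Nat.find_min' hex (by linarith)
  obtain ⟨j, hj⟩ : ∃ j, Nat.find hex = j + 1 := by
    refine Nat.exists_eq_succ_of_ne_zero ?_
    intro h0
    have h1 := Nat.find_spec hex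
    rw [h0] at h1
    linarith
  have hjL : j + 1 ≤ L := by omega
  have h1 : tau u c + t₀ ≤ tau u (z (j + 1)) := by
    have := Nat.find_spec hex
    rwa [hj] at this
  have h2 : tau u (z j) < tau u c + t₀ := by
    have := Nat.find_min hex (m := j) (by omega)
    push Not at this
    exact this
  have h3 : tau u (z (j + 1)) - tau u (z j) ≤ D := by
    rw [← tau_sub]
    exact (le_abs_self _).trans ((htn _).trans (hstep j (by omega)))
  obtain ⟨t, ht⟩ := hstrip (j + 1) hjL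
  have h4 : tau u (z (j + 1)) = tau u c + t + tau u ((z (j + 1) : ℂ) - (c + t * u)) := by
    rw [tau_sub, tau_add, htm]
    ring
  have h5 : |tau u ((z (j + 1) : ℂ) - (c + t * u))| ≤ w := (htn _).trans ht
  have h6 : |t - t₀| ≤ D + w := by
    have h8 := abs_le.1 h5
    rw [abs_le]
    constructor <;> linarith [h8.1, h8.2]
  refine hdisk (z (j + 1)) ?_ (hfar _ hjL) (hz _ hjL)
  have h8 : (z (j + 1) : ℂ) - (c + t₀ * u) =
      ((z (j + 1) : ℂ) - (c + t * u)) + ((t - t₀ : ℝ) : ℂ) * u := by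
    push_cast
    ring
  rw [h8]
  refine (norm_add_le _ _).trans ?_
  have h9 : ‖((t - t₀ : ℝ) : ℂ) * u‖ ≤ D + w := by
    rw [norm_mul, Complex.norm_real, Real.norm_eq_abs, hu, mul_one]
    exact h6
  linarith

/-- for all `D`, `w` there is `L`: no path of `L + 1` distinct Gaussian primes far from the origin
with steps at most `D` stays within distance `w` of a line -/
theorem path_uniform (D w : ℝ) : ∃ (L : ℕ) (ρ : ℝ), ∀ z : ℕ → GaussianInt,
    (∀ n ≤ L, Irreducible (z n)) → (∀ n ≤ L, ρ < ‖(z n : ℂ)‖) → Set.InjOn z (Set.Iic L) →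
    (∀ n < L, ‖(z (n + 1) : ℂ) - z n‖ ≤ D) → ∀ c u : ℂ, ‖u‖ = 1 →
      ∃ n ≤ L, ∀ t : ℝ, w < ‖(z n : ℂ) - (c + t * u)‖ := by
  classical
  obtain ⟨l, ρ, hl, hseg⟩ := seg (D + 2 * w)
  set r : ℝ := 4 * w + 1 + l with hr
  set M : ℕ := (finite_ball r).toFinset.card with hM
  refine ⟨M, ρ, ?_⟩
  intro z hz hfar hinj hstep c u hu
  by_contra hcon
  push Not at hcon
  have htm : ∀ t : ℝ, tau u (t * u) = t := by
    intro t
    rw [tau_mul, hu]
    ring
  have htn : ∀ p : ℂ, |tau u p| ≤ ‖p‖ := by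
    intro p
    have := abs_tau_le u p
    rwa [hu, mul_one] at this
  have hneg : ∀ p : ℂ, tau (-u) p = -tau u p := by
    intro p
    unfold tau
    rw [map_neg, mul_neg, Complex.neg_re]
  have hup := cross hseg M z hz hfar hstep c u hu hcon
  have hdn := cross hseg M z hz hfar hstep c (-u) (by rw [norm_neg, hu]) (by
    intro n hn
    obtain ⟨t, ht⟩ := hcon n hn
    refine ⟨-t, ?_⟩
    have h3 : ((-t : ℝ) : ℂ) * -u = t * u := by
      push_cast
      ring
    rw [h3]
    exact ht)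
  obtain ⟨s, hs⟩ := hcon 0 (Nat.zero_le _)
  have hs1 : tau u (z 0) = tau u c + s + tau u ((z 0 : ℂ) - (c + s * u)) := by
    rw [tau_sub, tau_add, htm]
    ring
  have hs2 := abs_le.1 ((htn ((z 0 : ℂ) - (c + s * u))).trans hs)
  have hbd : ∀ n ≤ M, ‖((z n - z 0 : GaussianInt) : ℂ)‖ ≤ r := by
    intro n hn
    obtain ⟨t, ht⟩ := hcon n hn
    have h1 := hup n hn
    have h2 := hdn n hn
    rw [hneg, hneg] at h2
    have h3 : tau u (z n) = tau u c + t + tau u ((z n : ℂ) - (c + t * u)) := by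
      rw [tau_sub, tau_add, htm]
      ring
    have h4 := abs_le.1 ((htn ((z n : ℂ) - (c + t * u))).trans ht)
    have h5 : |t - s| ≤ 2 * w + 1 + l := by
      rw [abs_le]
      constructor <;> linarith [h4.1, h4.2, hs2.1, hs2.2]
    have h6 : ((z n - z 0 : GaussianInt) : ℂ) = ((z n : ℂ) - (c + t * u)) -
        ((z 0 : ℂ) - (c + s * u)) + ((t - s : ℝ) : ℂ) * u := by
      rw [map_sub]
      push_cast
      ring
    rw [h6]
    refine (norm_add_le _ _).trans ?_
    have h7 := norm_sub_le ((z n : ℂ) - (c + t * u)) ((z 0 : ℂ) - (c + s * u))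
    have h8 : ‖((t - s : ℝ) : ℂ) * u‖ ≤ 2 * w + 1 + l := by
      rw [norm_mul, Complex.norm_real, Real.norm_eq_abs, hu, mul_one]
      exact h5
    linarith
  have hcard : (Finset.range (M + 1)).card ≤ (finite_ball r).toFinset.card := by
    refine Finset.card_le_card_of_injOn (fun n => z n - z 0) ?_ ?_
    · intro n hn
      have hn' : n ≤ M := by
        have := Finset.mem_range.1 (Finset.mem_coe.1 hn)
        omega
      rw [Finset.mem_coe, Set.Finite.mem_toFinset]
      exact hbd n hn'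
    · intro a ha b hb hab
      have ha' : a ≤ M := by
        have := Finset.mem_range.1 (Finset.mem_coe.1 ha)
        omega
      have hb' : b ≤ M := by
        have := Finset.mem_range.1 (Finset.mem_coe.1 hb)
        omega
      exact hinj ha' hb' (sub_left_injective hab)
  rw [Finset.card_range, ← hM] at hcard
  omega

end P015L
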