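import Vale.Agent.Lib.P015L.Core

/-!
# P015: disks without Gaussian primes centred on a polynomial curve
-/

namespace P015L

open Polynomial

theorem finite_le {P : ℤ[X]} (hP : 0 < P.natDegree) (B : ℤ) :
    {t : ℤ | |P.eval t| ≤ B}.Finite := by
  have h1 : {t : ℤ | |P.eval t| ≤ B} ⊆ ⋃ v ∈ Set.Icc (-B) B, {t : ℤ | (P - C v).IsRoot t} := by
    intro t ht
    have ht' : |P.eval t| ≤ B := ht
    rw [Set.mem_iUnion₂]
    refine ⟨P.eval t, abs_le.1 ht', ?_⟩
    change (P - C (P.eval t)).IsRoot t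
    rw [IsRoot.def, eval_sub, eval_C, sub_self]
  refine Set.Finite.subset ((Set.finite_Icc (-B) B).biUnion fun v _ => ?_) h1
  refine finite_setOfPred_isRoot ?_
  intro h
  have h2 : P = C v := sub_eq_zero.1 h
  rw [h2, natDegree_C] at hP
  exact lt_irrefl _ hP

theorem large {P Q : ℤ[X]} (h : 0 < P.natDegree ∨ 0 < Q.natDegree) (B : ℤ) :
    ∃ T : ℤ, ∀ t : ℤ, T < t → B ≤ |P.eval t| ∨ B ≤ |Q.eval t| := by
  rcases h with h | h
  · obtain ⟨T, hT⟩ := (finite_le h B).bddAbove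
    refine ⟨T, fun t ht => Or.inl ?_⟩
    by_contra h1
    push Not at h1
    have h2 : t ≤ T := hT h1.le
    exact absurd ht (not_lt.2 h2)
  · obtain ⟨T, hT⟩ := (finite_le h B).bddAbove
    refine ⟨T, fun t ht => Or.inr ?_⟩
    by_contra h1
    push Not at h1
    have h2 : t ≤ T := hT h1.le
    exact absurd ht (not_lt.2 h2)

/-- arbitrarily large disks without Gaussian primes centred at the points `P t + i Q t` -/
theorem poly_disk (P Q : ℤ[X]) (h : 0 < P.natDegree ∨ 0 < Q.natDegree) (R : ℝ) (T : ℤ) :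
    ∃ t : ℤ, T ≤ t ∧ ∀ z : GaussianInt,
      ‖(z : ℂ) - (((P.eval t : ℤ) : ℂ) + ((Q.eval t : ℤ) : ℂ) * Complex.I)‖ ≤ R → ¬ Prime z := by
  set K : ℕ := ⌈|R|⌉₊ with hK
  have hKR : R ≤ (K : ℝ) := (le_abs_self R).trans (Nat.le_ceil _)
  obtain ⟨T₁, hT₁⟩ := large h ((K : ℤ) + 2)
  set t₁ : ℤ := T₁ + 1
  let n₁ : GaussianInt := ⟨P.eval t₁, Q.eval t₁⟩
  have hn : (K : ℤ) + 2 ≤ |n₁.re| ∨ (K : ℤ) + 2 ≤ |n₁.im| := hT₁ t₁ (by omega)
  have hN := md_pos hn
  obtain ⟨T₂, hT₂⟩ := large h ((K : ℤ) + md K n₁ + 1)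
  set s : ℤ := |t₁| + |T| + |T₂| + 1 with hs
  have hs0 : 0 ≤ s := by positivity
  have ht : s ≤ md K n₁ * s := by nlinarith
  refine ⟨t₁ + md K n₁ * s, ?_, ?_⟩
  · have := neg_abs_le t₁
    have := le_abs_self T
    have := abs_nonneg T₂
    linarith
  · intro z hz
    let n : GaussianInt := ⟨P.eval (t₁ + md K n₁ * s), Q.eval (t₁ + md K n₁ * s)⟩
    have hdvd : md K n₁ ∣ t₁ + md K n₁ * s - t₁ := ⟨s, by ring⟩
    refine square_free hn (n := n) (hdvd.trans (sub_dvd_eval_sub _ _ P))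
      (hdvd.trans (sub_dvd_eval_sub _ _ Q)) (hT₂ _ ?_) z ?_ ?_
    · have := neg_abs_le t₁
      have := le_abs_self T₂
      have := abs_nonneg T
      linarith
    · have h1 := (Complex.abs_re_le_norm _).trans (hz.trans hKR)
      have h2 : ((|z.re - P.eval (t₁ + md K n₁ * s)| : ℤ) : ℝ) ≤ ((K : ℤ) : ℝ) := by
        push_cast
        simpa using h1
      exact_mod_cast h2
    · have h1 := (Complex.abs_im_le_norm _).trans (hz.trans hKR)
      have h2 : ((|z.im - Q.eval (t₁ + md K n₁ * s)| : ℤ) : ℝ) ≤ ((K : ℤ) : ℝ) := by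
        push_cast
        simpa using h1
      exact_mod_cast h2

end P015L
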