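import Vale.Agent.Lib.P015L.Lines

/-!
# P015: disks without Gaussian primes centred on an arbitrary line, end of the proof
-/

namespace P015L

/-- the case of a rational direction `lam * (a, b)` -/
theorem line_rat {lam : ℝ} (hlam : lam ≠ 0) {a b : ℤ} (hab : a ≠ 0 ∨ b ≠ 0) (c₁ c₂ R T : ℝ) :
    ∃ t : ℝ, T ≤ t ∧ ∀ z : GaussianInt, |(z.re : ℝ) - (c₁ + t * (lam * a))| ≤ R →
      |(z.im : ℝ) - (c₂ + t * (lam * b))| ≤ R → ¬ Prime z := by
  set K : ℕ := ⌈|R|⌉₊ + 1 with hK
  have hKR : R + 1 ≤ (K : ℝ) := by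
    rw [hK]
    push_cast
    have := Nat.le_ceil |R|
    have := le_abs_self R
    linarith
  set g₁ : ℤ := ⌊c₁⌋ with hg₁
  set g₂ : ℤ := ⌊c₂⌋ with hg₂
  have hc₁ : |(g₁ : ℝ) - c₁| ≤ 1 := by
    rw [abs_le]
    have h1 := Int.floor_le c₁
    have h2 := Int.lt_floor_add_one c₁
    constructor <;> linarith
  have hc₂ : |(g₂ : ℝ) - c₂| ≤ 1 := by
    rw [abs_le]
    have h1 := Int.floor_le c₂
    have h2 := Int.lt_floor_add_one c₂
    constructor <;> linarith
  -- size of a point of the lattice line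
  have hsize : ∀ S L : ℤ, |g₁| + |g₂| + L ≤ |S| → L ≤ |g₁ + S * a| ∨ L ≤ |g₂ + S * b| := by
    intro S L hS
    rcases hab with h | h
    · left
      have h1 : |S| ≤ |S * a| := by
        rw [abs_mul]
        have h2 : 1 ≤ |a| := Int.one_le_abs h
        nlinarith [abs_nonneg S]
      have h3 : |S * a| ≤ |g₁ + S * a| + |g₁| := by
        have h4 := abs_sub (g₁ + S * a) g₁
        rw [show g₁ + S * a - g₁ = S * a by ring] at h4
        exact h4
      have h5 := abs_nonneg g₂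
      linarith
    · right
      have h1 : |S| ≤ |S * b| := by
        rw [abs_mul]
        have h2 : 1 ≤ |b| := Int.one_le_abs h
        nlinarith [abs_nonneg S]
      have h3 : |S * b| ≤ |g₂ + S * b| + |g₂| := by
        have h4 := abs_sub (g₂ + S * b) g₂
        rw [show g₂ + S * b - g₂ = S * b by ring] at h4
        exact h4
      have h5 := abs_nonneg g₁
      linarith
  set s₁ : ℤ := |g₁| + |g₂| + (K + 2) with hs₁
  have hs₁0 : 0 ≤ s₁ := by positivity
  let n₁ : GaussianInt := ⟨g₁ + s₁ * a, g₂ + s₁ * b⟩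
  have hn : (K : ℤ) + 2 ≤ |n₁.re| ∨ (K : ℤ) + 2 ≤ |n₁.im| :=
    hsize s₁ _ (by rw [abs_of_nonneg hs₁0])
  have hN := md_pos hn
  set N : ℤ := md K n₁ with hNd
  obtain ⟨σ, hσ, hσu⟩ : ∃ σ : ℤ, (σ = 1 ∨ σ = -1) ∧ (σ : ℝ) * lam = |lam| := by
    rcases abs_cases lam with ⟨h1, -⟩ | ⟨h1, -⟩
    · exact ⟨1, Or.inl rfl, by rw [h1]; simp⟩
    · exact ⟨-1, Or.inr rfl, by rw [h1]; simp⟩
  have hlam' : 0 < |lam| := abs_pos.2 hlam
  set m : ℤ := s₁ + (|g₁| + |g₂| + (K + N + 1)) + ⌈|T| * |lam|⌉ with hm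
  have hceil : |T| * |lam| ≤ ⌈|T| * |lam|⌉ := Int.le_ceil _
  have hceil0 : 0 ≤ ⌈|T| * |lam|⌉ := Int.ceil_nonneg (by positivity)
  have hm0 : 0 ≤ m := by
    have := abs_nonneg g₁
    have := abs_nonneg g₂
    have : (0 : ℤ) ≤ K := Int.natCast_nonneg _
    linarith
  set S : ℤ := s₁ + N * (σ * m) with hS
  have hσS : |g₁| + |g₂| + (K + N + 1) + ⌈|T| * |lam|⌉ ≤ σ * S := by
    have h2 : σ * σ = 1 := by rcases hσ with h | h <;> rw [h] <;> norm_num
    have h1 : σ * S = σ * s₁ + (σ * σ) * (N * m) := by rw [hS]; ring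
    rw [h1, h2, one_mul]
    have h3 : -s₁ ≤ σ * s₁ := by
      rcases hσ with h | h <;> rw [h] <;> linarith
    have h4 : m ≤ N * m := by nlinarith
    linarith
  have hSabs : σ * S ≤ |S| := by
    rcases hσ with h | h
    · rw [h, one_mul]
      exact le_abs_self _
    · rw [h, neg_one_mul]
      exact neg_le_abs _
  set t : ℝ := S / lam with ht
  have htl : t * lam = S := div_mul_cancel₀ _ hlam
  refine ⟨t, ?_, ?_⟩
  · have h1 : t * |lam| = ((σ * S : ℤ) : ℝ) := by
      rw [← hσu]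
      have h2 : t * (σ * lam) = σ * (t * lam) := by ring
      rw [h2, htl]
      push_cast
      ring
    have h3 : T * |lam| ≤ |T| * |lam| := mul_le_mul_of_nonneg_right (le_abs_self _) hlam'.le
    have h5 : (⌈|T| * |lam|⌉ : ℝ) ≤ ((σ * S : ℤ) : ℝ) := by
      have h6 : ⌈|T| * |lam|⌉ ≤ σ * S := by
        have := abs_nonneg g₁
        have := abs_nonneg g₂
        have : (0 : ℤ) ≤ K := Int.natCast_nonneg _
        linarith
      exact_mod_cast h6
    have h4 : T * |lam| ≤ t * |lam| := by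
      rw [h1]
      linarith
    exact le_of_mul_le_mul_right h4 hlam'
  · intro z hz1 hz2
    let n : GaussianInt := ⟨g₁ + S * a, g₂ + S * b⟩
    refine square_free hn (n := n) ?_ ?_ ?_ z ?_ ?_
    · refine ⟨σ * m * a, ?_⟩
      change g₁ + S * a - (g₁ + s₁ * a) = _
      rw [hS]
      ring
    · refine ⟨σ * m * b, ?_⟩
      change g₂ + S * b - (g₂ + s₁ * b) = _
      rw [hS]
      ring
    · exact hsize S _ (by linarith)
    · change |z.re - (g₁ + S * a)| ≤ (K : ℤ)
      have h0 : c₁ + t * (lam * a) = c₁ + S * a := by rw [← mul_assoc, htl]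
      rw [h0] at hz1
      have h1 : |(z.re : ℝ) - (g₁ + S * a)| ≤ R + 1 := by
        have h3 := abs_sub_le (z.re : ℝ) (c₁ + S * a) (g₁ + S * a)
        have h4 : |c₁ + S * a - (g₁ + S * a)| = |(g₁ : ℝ) - c₁| := by
          rw [abs_sub_comm]
          congr 1
          ring
        rw [h4] at h3
        linarith
      have h2 : ((|z.re - (g₁ + S * a)| : ℤ) : ℝ) ≤ ((K : ℤ) : ℝ) := by
        push_cast
        linarith
      exact_mod_cast h2
    · change |z.im - (g₂ + S * b)| ≤ (K : ℤ)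
      have h0 : c₂ + t * (lam * b) = c₂ + S * b := by rw [← mul_assoc, htl]
      rw [h0] at hz2
      have h1 : |(z.im : ℝ) - (g₂ + S * b)| ≤ R + 1 := by
        have h3 := abs_sub_le (z.im : ℝ) (c₂ + S * b) (g₂ + S * b)
        have h4 : |c₂ + S * b - (g₂ + S * b)| = |(g₂ : ℝ) - c₂| := by
          rw [abs_sub_comm]
          congr 1
          ring
        rw [h4] at h3
        linarith
      have h2 : ((|z.im - (g₂ + S * b)| : ℤ) : ℝ) ≤ ((K : ℤ) : ℝ) := by
        push_cast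
        linarith
      exact_mod_cast h2

theorem line_all {u₁ u₂ : ℝ} (hu : u₁ ≠ 0 ∨ u₂ ≠ 0) (c₁ c₂ R T : ℝ) :
    ∃ t : ℝ, T ≤ t ∧ ∀ z : GaussianInt, |(z.re : ℝ) - (c₁ + t * u₁)| ≤ R →
      |(z.im : ℝ) - (c₂ + t * u₂)| ≤ R → ¬ Prime z := by
  by_cases h1 : u₁ = 0
  · have h2 : u₂ ≠ 0 := by
      rcases hu with h | h
      · exact absurd h1 h
      · exact h
    have h3 := line_rat h2 (a := 0) (b := 1) (Or.inr one_ne_zero) c₁ c₂ R T
    rw [h1]
    push_cast at h3
    rw [mul_zero, mul_one] at h3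
    exact h3
  · by_cases h2 : Irrational (u₂ / u₁)
    · exact line_irr h1 h2 c₁ c₂ R T
    · obtain ⟨q, hq⟩ : ∃ q : ℚ, (q : ℝ) = u₂ / u₁ := by
        unfold Irrational at h2
        push Not at h2
        exact h2
      have hd : (q.den : ℝ) ≠ 0 := by exact_mod_cast q.den_ne_zero
      have hlam : u₁ / q.den ≠ 0 := div_ne_zero h1 hd
      have h3 := line_rat hlam (a := q.den) (b := q.num)
        (Or.inl (by exact_mod_cast q.den_ne_zero)) c₁ c₂ R T
      have h4 : u₁ / q.den * ((q.den : ℤ) : ℝ) = u₁ := by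
        push_cast
        exact div_mul_cancel₀ _ hd
      have h5 : u₁ / q.den * (q.num : ℝ) = u₂ := by
        have h6 : (q : ℝ) = q.num / q.den := by
          exact_mod_cast (Rat.num_div_den q).symm
        rw [h6] at hq
        have h7 : (q.num : ℝ) / q.den * u₁ = u₂ := by
          rw [hq]
          exact div_mul_cancel₀ _ h1
        rw [← h7]
        ring
      rw [h4, h5] at h3
      exact h3

/-- the same with complex numbers -/
theorem line_disk (c u : ℂ) (hu : u ≠ 0) (R T : ℝ) : ∃ t : ℝ, T ≤ t ∧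
    ∀ z : GaussianInt, ‖(z : ℂ) - (c + t * u)‖ ≤ R → ¬ Prime z := by
  have hu' : u.re ≠ 0 ∨ u.im ≠ 0 := by
    by_contra h
    push Not at h
    exact hu (Complex.ext h.1 h.2)
  obtain ⟨t, ht, h⟩ := line_all hu' c.re c.im R T
  refine ⟨t, ht, fun z hz => h z ?_ ?_⟩
  · refine le_trans ?_ hz
    have h1 := Complex.abs_re_le_norm ((z : ℂ) - (c + t * u))
    simpa using h1
  · refine le_trans ?_ hz
    have h1 := Complex.abs_im_le_norm ((z : ℂ) - (c + t * u))
    simpa using h1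

end P015L
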